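import Vale.Agent.P196.Cut.Defs

/-!
# Inclusion of letters in the groups of cell systems
-/

noncomputable section

namespace Vale.Agent.P196.Cut

open Equiv Vale.Agent.P196.S0

section blow

variable {ι : Type*}

theorem small_mono {E F : Set Z2} {V W : Finset Z2} (h : Small F W) (hE : E ⊆ F) (hV : V ⊆ W) :
    Small E V := fun v hv v' hv' x hx x' hx' e => h v (hV hv) v' (hV hv') x (hE hx) x' (hE hx') e

/-- evaluation of `blow` outside. -/
theorem blow_apply_out {E : Set Z2} {V : Finset Z2} (h : Small E V) (σ : Perm (V × ι)) {y : Z2}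
    (hy : ∀ v ∈ V, y - v ∉ E) (f : ι) : blow E V h σ (y, f) = (y, f) :=
  blow_eq_self h σ fun v hv => absurd hv (hy v v.2)

/-- two ways for a point: in the support region or not. -/
theorem blow_cases {E : Set Z2} {V : Finset Z2} (y : Z2) :
    (∃ x ∈ E, ∃ v : V, y = x + v) ∨ (∀ v ∈ V, y - v ∉ E) := by
  by_cases h : ∃ v ∈ V, y - v ∈ E
  · obtain ⟨v, hv, h⟩ := h
    exact Or.inl ⟨_, h, ⟨v, hv⟩, by simp⟩
  · push Not at h
    exact Or.inr h

theorem blow_union {E F : Set Z2} {V : Finset Z2} (h : Small (E ∪ F) V) (hEF : Disjoint E F)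
    (σ : Perm (V × ι)) :
    blow (E ∪ F) V h σ = blow E V (small_mono h Set.subset_union_left le_rfl) σ *
      blow F V (small_mono h Set.subset_union_right le_rfl) σ := by
  ext1 ⟨y, f⟩
  rw [Perm.mul_apply]
  rcases blow_cases (E := F) (V := V) y with ⟨x, hx, v, rfl⟩ | hF
  · rw [blow_apply _ σ hx (v, f), blow_apply h σ (Or.inr hx : x ∈ E ∪ F) (v, f)]
    rw [blow_apply_out]
    intro v' hv' hc
    have h1 : ((σ (v, f)).1 : Z2) = v' := by
      refine h _ (σ (v, f)).1.2 v' hv' x (Or.inr hx) _ (Or.inl hc) ?_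
      simp
    rw [h1, add_sub_cancel_right] at hc
    exact Set.disjoint_left.1 hEF hc hx
  · rw [blow_apply_out _ σ hF]
    rcases blow_cases (E := E) (V := V) y with ⟨x, hx, v, rfl⟩ | hE
    · rw [blow_apply _ σ hx (v, f), blow_apply h σ (Or.inl hx : x ∈ E ∪ F) (v, f)]
    · rw [blow_apply_out _ σ hE, blow_apply_out]
      rintro v hv (hc | hc)
      · exact hE v hv hc
      · exact hF v hv hc

theorem blow_congr {E F : Set Z2} {V : Finset Z2} (hE : Small E V) (hF : Small F V) (e : E = F)
    (σ : Perm (V × ι)) : blow E V hE σ = blow F V hF σ := by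
  subst e; rfl

theorem blow_empty {V : Finset Z2} (h : Small ∅ V) (σ : Perm (V × ι)) : blow ∅ V h σ = 1 := by
  ext1 ⟨y, f⟩
  rw [blow_apply_out _ _ (by simp)]; rfl

/-- membership in a subgroup can be checked on the pieces of a finite partition. -/
theorem blow_mem_of_partition {K : Type*} [DecidableEq K] (S : Subgroup (Perm (Z2 × ι)))
    (s : Finset K) (E : K → Set Z2) (hdisj : ∀ k ∈ s, ∀ k' ∈ s, k ≠ k' → Disjoint (E k) (E k'))
    {V : Finset Z2} (σ : Perm (V × ι)) (h : Small (⋃ k ∈ s, E k) V)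
    (hk : ∀ k, (hks : k ∈ s) → blow (E k) V (small_mono h (Set.subset_biUnion_of_mem hks) le_rfl) σ ∈ S) :
    blow (⋃ k ∈ s, E k) V h σ ∈ S := by
  induction s using Finset.induction_on with
  | empty =>
    have h0 : Small ∅ V := fun _ _ _ _ x hx => absurd hx (by simp)
    rw [blow_congr h h0 (by simp), blow_empty]
    exact S.one_mem
  | insert a s ha ih =>
    have hU : (⋃ k ∈ insert a s, E k) = E a ∪ ⋃ k ∈ s, E k := Finset.set_biUnion_insert _ _ _
    have h' : Small (E a ∪ ⋃ k ∈ s, E k) V := by rw [← hU]; exact h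
    rw [blow_congr h h' hU, blow_union h']
    · refine S.mul_mem (hk a (Finset.mem_insert_self _ _)) (ih ?_ _ ?_)
      · exact fun k hks k' hks' => hdisj k (Finset.mem_insert_of_mem hks) k'
          (Finset.mem_insert_of_mem hks')
      · exact fun k hks => hk k (Finset.mem_insert_of_mem hks)
    · rw [Set.disjoint_iUnion₂_right]
      intro k hks
      exact hdisj a (Finset.mem_insert_self _ _) k (Finset.mem_insert_of_mem hks)
        (by rintro rfl; exact ha hks)

/-- translate of the sites by `y` into a larger set of sites. -/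
def shEmb (y : Z2) (V D : Finset Z2) (hVD : ∀ v ∈ V, y + v ∈ D) : (V × ι) ↪ (D × ι) where
  toFun p := (⟨y + p.1, hVD p.1 p.1.2⟩, p.2)
  inj' := by
    rintro ⟨⟨v, hv⟩, f⟩ ⟨⟨v', hv'⟩, f'⟩ he
    simp only [Prod.mk.injEq, Subtype.mk.injEq, add_right_inj] at he
    obtain ⟨rfl, rfl⟩ := he
    rfl

theorem blow_shift {E : Set Z2} {V D : Finset Z2} (y : Z2) (hVD : ∀ v ∈ V, y + v ∈ D)
    (hD : Small E D) (hV : Small {x | x - y ∈ E} V) (σ : Perm (V × ι)) :
    blow {x | x - y ∈ E} V hV σ = blow E D hD (σ.viaEmbedding (shEmb y V D hVD)) := by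
  ext1 ⟨z, f⟩
  rcases blow_cases (E := {x | x - y ∈ E}) (V := V) z with ⟨x, hx, v, rfl⟩ | hz
  · rw [blow_apply _ σ hx (v, f)]
    have hx' : x - y ∈ E := hx
    have e1 : x + (v : Z2) = (x - y) + ((shEmb (ι := ι) y V D hVD (v, f)).1 : Z2) := by
      change x + (v : Z2) = (x - y) + (y + v)
      abel
    have h2 := blow_apply hD (σ.viaEmbedding (shEmb y V D hVD)) hx' (shEmb y V D hVD (v, f))
    have h3 : (x + (v : Z2), f) = ((x - y) + ((shEmb (ι := ι) y V D hVD (v, f)).1 : Z2),
        (shEmb (ι := ι) y V D hVD (v, f)).2) := by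
      rw [← e1]; rfl
    rw [h3, h2, Perm.viaEmbedding_apply]
    change _ = (x - y + (y + ((σ (v, f)).1 : Z2)), (σ (v, f)).2)
    refine Prod.ext ?_ rfl
    change x + ((σ (v, f)).1 : Z2) = x - y + (y + ((σ (v, f)).1 : Z2))
    abel
  · rw [blow_apply_out _ σ hz, blow_eq_self]
    intro w hw
    refine Perm.viaEmbedding_apply_of_notMem _ _ _ ?_
    rintro ⟨⟨v, f'⟩, he⟩
    have h1 : y + (v : Z2) = w := congrArg (fun q => ((q.1 : D) : Z2)) he
    apply hz v v.2
    change z - v - y ∈ E
    rw [← h1] at hw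
    rwa [show z - (v : Z2) - y = z - (y + v) by abel]

theorem sign_shEmb [Fintype ι] [DecidableEq ι] (y : Z2) (V D : Finset Z2)
    (hVD : ∀ v ∈ V, y + v ∈ D) (σ : Perm (V × ι)) :
    Perm.sign (σ.viaEmbedding (shEmb y V D hVD)) = Perm.sign σ := by
  rw [Perm.viaEmbedding]
  convert Perm.sign_extendDomain σ (Equiv.ofInjective (shEmb (ι := ι) y V D hVD).1
    (shEmb (ι := ι) y V D hVD).2)

end blow

namespace CS

variable {N : ℤ} {J Θ : Type} (C : CS N J Θ) {ι : Type} [Fintype ι] [DecidableEq ι]

/-- **Inclusion lemma.** `W` a nonempty finite set of sites; every `x ∈ E` has `x + W` inside the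
cell `(α x, ℓ x)`, and membership in `E` only depends on the type of the cell and the relative
position.  Then the even permutations of the sites above `E` are in the group of the cells. -/
theorem blow_mem_G [Finite J] [Finite Θ] (E : Set Z2) (W : Finset Z2) (hW : W.Nonempty)
    (h : Small E W) (α : Z2 → Z2) (l : Z2 → J)
    (hcell : ∀ x ∈ E, ∀ v ∈ W, C.anch (x + v) = α x ∧ C.lab (x + v) = some (l x))
    (htyp : ∀ x ∈ E, ∀ p', C.typ (l x) p' = C.typ (l x) (α x) → x + N • (p' - α x) ∈ E)
    (σ : Perm (W × ι)) (hσ : σ ∈ alternatingGroup (W × ι)) : blow E W h σ ∈ C.G ι := by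
  classical
  have := Fintype.ofFinite J
  have := Fintype.ofFinite Θ
  obtain ⟨v0, hv0⟩ := hW
  -- relative positions
  let Y : Finset Z2 := Finset.univ.biUnion fun j : J => (C.D j).image fun d => d - v0
  have hrel : ∀ x ∈ E, ∀ v ∈ W, x - N • α x + v ∈ C.D (l x) := by
    intro x hx v hv
    obtain ⟨h1, h2⟩ := hcell x hx v hv
    have e : x - N • α x + v = (x + v) + N • (-α x) := by rw [smul_neg]; abel
    rw [C.mem_D, e, C.anch_add, C.lab_add, h1, h2]
    exact ⟨by abel, rfl⟩
  let s : Finset (J × Θ × Z2) := Finset.univ ×ˢ (Finset.univ ×ˢ Y)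
  let F : J × Θ × Z2 → Set Z2 := fun k =>
    {x | x ∈ E ∧ l x = k.1 ∧ C.typ k.1 (α x) = k.2.1 ∧ x - N • α x = k.2.2}
  have hEF : E = ⋃ k ∈ s, F k := by
    ext x
    simp only [Set.mem_iUnion]
    constructor
    · intro hx
      refine ⟨(l x, C.typ (l x) (α x), x - N • α x), ?_, hx, rfl, rfl, rfl⟩
      simp only [s, Finset.mem_product, Finset.mem_univ, true_and, Y, Finset.mem_biUnion,
        Finset.mem_image]
      exact ⟨l x, _, hrel x hx v0 hv0, by abel⟩
    · rintro ⟨k, _, hx, _⟩
      exact hx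
  have h' : Small (⋃ k ∈ s, F k) W := by rw [← hEF]; exact h
  rw [blow_congr h h' hEF]
  apply blow_mem_of_partition
  · rintro ⟨j, θ, y⟩ - ⟨j', θ', y'⟩ - hne
    rw [Set.disjoint_left]
    rintro x ⟨_, h1, h2, h3⟩ ⟨_, h4, h5, h6⟩
    simp only at h1 h2 h3 h4 h5 h6
    apply hne
    subst h1 h4 h2 h3 h5 h6
    rfl
  · rintro ⟨j, θ, y⟩ hks
    by_cases hemp : (F (j, θ, y)).Nonempty
    · obtain ⟨x, hx, h1, h2, h3⟩ := hemp
      simp only at h1 h2 h3
      have hVD : ∀ v ∈ W, y + v ∈ C.D j := by
        intro v hv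
        rw [← h3, ← h1]
        exact hrel x hx v hv
      have hset : F (j, θ, y) = {z | z - y ∈ C.E j θ} := by
        ext z
        constructor
        · rintro ⟨hz, g1, g2, g3⟩
          simp only at g1 g2 g3
          refine ⟨α z, ?_, g2⟩
          rw [← g3]; abel
        · rintro ⟨p, hp, hp2⟩
          have hz : z = x + N • (p - α x) := by
            have : z = N • p + y := by rw [← hp]; abel
            rw [this, ← h3, smul_sub]; abel
          have hzE : z ∈ E := by
            rw [hz]
            apply htyp x hx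
            rw [h1, h2, hp2]
          have hcz := hcell z hzE v0 hv0
          have hcx := hcell x hx v0 hv0
          have e : z + v0 = (x + v0) + N • (p - α x) := by rw [hz]; abel
          have ha : α z = p := by
            rw [← hcz.1, e, C.anch_add, hcx.1]; abel
          have hl : l z = j := by
            have : some (l z) = some (l x) := by
              rw [← hcz.2, e, C.lab_add, hcx.2]
            rw [Option.some.inj this, h1]
          refine ⟨hzE, hl, ?_, ?_⟩
          · change C.typ j (α z) = θ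
            rw [ha, hp2]
          · change z - N • α z = y
            rw [ha, hz, ← h3, smul_sub]; abel
      have hsm : Small {z | z - y ∈ C.E j θ} W := by
        rw [← hset, ]
        exact small_mono h' (Set.subset_biUnion_of_mem hks) le_rfl
      rw [blow_congr _ hsm hset, blow_shift y hVD (C.small j θ) hsm]
      refine Subgroup.mem_iSup_of_mem (j, θ) ?_
      refine ⟨σ.viaEmbedding (shEmb y W (C.D j) hVD), ?_, rfl⟩
      rw [SetLike.mem_coe, Perm.mem_alternatingGroup, sign_shEmb]
      exact Perm.mem_alternatingGroup.1 hσ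
    · rw [Set.not_nonempty_iff_eq_empty] at hemp
      have h0 : Small ∅ W := fun _ _ _ _ x hx => absurd hx (by simp)
      rw [blow_congr _ h0 hemp, blow_empty]
      exact Subgroup.one_mem _

end CS

end Vale.Agent.P196.Cut
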