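import Vale.Agent.P196.H240.Incl
import Vale.Agent.P196.Cut.Letter

/-!
# Inclusion of the common letters `ltr σ E a` in the groups of cell systems
-/

noncomputable section

namespace Vale.Agent.P196.Cut

open Equiv Vale.Agent.P196.S0

section ltr

variable {ι : Type*}

/-- membership in a subgroup can be checked on the pieces of a finite partition. -/
theorem ltr_mem_of_partition {K : Type*} [DecidableEq K] (S : Subgroup (Perm (Z2 × ι)))
    (s : Finset K) (E : K → Set Z2) (hdisj : ∀ k ∈ s, ∀ k' ∈ s, k ≠ k' → Disjoint (E k) (E k'))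
    (σ : ι → Z2) (a : Perm ι) (hk : ∀ k ∈ s, ltr σ (E k) a ∈ S) :
    ltr σ (⋃ k ∈ s, E k) a ∈ S := by
  induction s using Finset.induction_on with
  | empty =>
    simp only [Finset.notMem_empty, Set.iUnion_of_empty, Set.iUnion_empty, ltr_empty]
    exact S.one_mem
  | insert b s hb ih =>
    rw [Finset.set_biUnion_insert, ltr_union]
    · refine S.mul_mem (hk b (Finset.mem_insert_self _ _)) (ih ?_ ?_)
      · exact fun k hks k' hks' => hdisj k (Finset.mem_insert_of_mem hks) k'
          (Finset.mem_insert_of_mem hks')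
      · exact fun k hks => hk k (Finset.mem_insert_of_mem hks)
    · rw [Set.disjoint_iUnion₂_right]
      intro k hks
      exact hdisj b (Finset.mem_insert_self _ _) k (Finset.mem_insert_of_mem hks)
        (by rintro rfl; exact hb hks)

/-- the transversal `f ↦ (y + σ f, f)`. -/
def trEmb (y : Z2) (σ : ι → Z2) (D : Finset Z2) (hD : ∀ f, y + σ f ∈ D) : ι ↪ (D × ι) where
  toFun f := (⟨y + σ f, hD f⟩, f)
  inj' := fun _ _ he => congrArg Prod.snd he

theorem ltr_shift {E : Set Z2} {D : Finset Z2} (y : Z2) (σ : ι → Z2) (hyD : ∀ f, y + σ f ∈ D)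
    (hD : Small E D) (a : Perm ι) :
    ltr σ {x | x - y ∈ E} a = blow E D hD (a.viaEmbedding (trEmb y σ D hyD)) := by
  ext1 ⟨z, f⟩
  by_cases hz : z - σ f ∈ {x | x - y ∈ E}
  · rw [ltr_apply_mem hz]
    have hz' : z - σ f - y ∈ E := hz
    have h2 := blow_apply hD (a.viaEmbedding (trEmb y σ D hyD)) hz' (trEmb y σ D hyD f)
    have h3 : (z, f) = ((z - σ f - y) + ((trEmb y σ D hyD f).1 : Z2), (trEmb y σ D hyD f).2) := by
      refine Prod.ext ?_ rfl
      change z = z - σ f - y + (y + σ f)
      abel
    rw [h3, h2, Perm.viaEmbedding_apply]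
    refine Prod.ext ?_ rfl
    change z - σ f + σ (a f) = z - σ f - y + (y + σ (a f))
    abel
  · rw [ltr_apply_notMem hz, blow_eq_self]
    intro w hw
    refine Perm.viaEmbedding_apply_of_notMem _ _ _ ?_
    rintro ⟨f', he⟩
    have h1 : y + σ f' = w := congrArg (fun q => ((q.1 : D) : Z2)) he
    have h2 : f' = f := congrArg Prod.snd he
    subst h2
    apply hz
    change z - σ f' - y ∈ E
    rw [← h1] at hw
    rwa [show z - σ f' - y = z - (y + σ f') by abel]

theorem sign_trEmb [Fintype ι] [DecidableEq ι] (y : Z2) (σ : ι → Z2) (D : Finset Z2)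
    (hD : ∀ f, y + σ f ∈ D) (a : Perm ι) :
    Perm.sign (a.viaEmbedding (trEmb y σ D hD)) = Perm.sign a := by
  rw [Perm.viaEmbedding]
  convert Perm.sign_extendDomain a (Equiv.ofInjective (trEmb y σ D hD).1 (trEmb y σ D hD).2)

end ltr

namespace CS

variable {N : ℤ} {J Θ : Type} (C : CS N J Θ) {ι : Type} [Fintype ι] [DecidableEq ι]

/-- **Inclusion lemma for letters.** Every atom `{(x + σ f, f)}`, `x ∈ E`, lies inside the cell
`(α x, l x)`, and membership in `E` only depends on the type of the cell and the relative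
position.  Then the letter is in the group of the cells. -/
theorem ltr_mem_G [Finite J] [Finite Θ] (σ : ι → Z2) (E : Set Z2) (α : Z2 → Z2) (l : Z2 → J)
    (hcell : ∀ x ∈ E, ∀ f, C.anch (x + σ f) = α x ∧ C.lab (x + σ f) = some (l x))
    (htyp : ∀ x ∈ E, ∀ p', C.typ (l x) p' = C.typ (l x) (α x) → x + N • (p' - α x) ∈ E)
    (a : Perm ι) (ha : a ∈ alternatingGroup ι) : ltr σ E a ∈ C.G ι := by
  classical
  rcases isEmpty_or_nonempty ι with hι | ⟨⟨f0⟩⟩
  · have : a = 1 := Subsingleton.elim _ _
    rw [this, map_one]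
    exact Subgroup.one_mem _
  have := Fintype.ofFinite J
  have := Fintype.ofFinite Θ
  let Y : Finset Z2 := Finset.univ.biUnion fun j : J => (C.D j).image fun d => d - σ f0
  have hrel : ∀ x ∈ E, ∀ f, x - N • α x + σ f ∈ C.D (l x) := by
    intro x hx f
    obtain ⟨h1, h2⟩ := hcell x hx f
    have e : x - N • α x + σ f = (x + σ f) + N • (-α x) := by rw [smul_neg]; abel
    rw [C.mem_D, e, C.anch_add, C.lab_add, h1, h2]
    exact ⟨by abel, rfl⟩
  let s : Finset (J × Θ × Z2) := Finset.univ ×ˢ (Finset.univ ×ˢ Y)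
  let F : J × Θ × Z2 → Set Z2 := fun k =>
    {x | x ∈ E ∧ l x = k.1 ∧ C.typ k.1 (α x) = k.2.1 ∧ x - N • α x = k.2.2}
  have hEF : E = ⋃ k ∈ s, F k := by
    ext x
    simp only [Set.mem_iUnion]
    constructor
    · intro hx
      refine ⟨(l x, C.typ (l x) (α x), x - N • α x), ?_, hx, rfl, rfl, rfl⟩
      simp only [s, Finset.mem_product, Finset.mem_univ, true_and, Y, Finset.mem_biUnion,
        Finset.mem_image]
      exact ⟨l x, _, hrel x hx f0, by abel⟩
    · rintro ⟨k, _, hx, _⟩
      exact hx
  rw [hEF]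
  apply ltr_mem_of_partition
  · rintro ⟨j, θ, y⟩ - ⟨j', θ', y'⟩ - hne
    rw [Set.disjoint_left]
    rintro x ⟨_, h1, h2, h3⟩ ⟨_, h4, h5, h6⟩
    simp only at h1 h2 h3 h4 h5 h6
    apply hne
    subst h1 h4 h2 h3 h5 h6
    rfl
  · rintro ⟨j, θ, y⟩ hks
    by_cases hemp : (F (j, θ, y)).Nonempty
    · obtain ⟨x, hx, h1, h2, h3⟩ := hemp
      simp only at h1 h2 h3
      have hVD : ∀ f, y + σ f ∈ C.D j := by
        intro f
        rw [← h3, ← h1]
        exact hrel x hx f
      have hset : F (j, θ, y) = {z | z - y ∈ C.E j θ} := by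
        ext z
        constructor
        · rintro ⟨hz, g1, g2, g3⟩
          simp only at g1 g2 g3
          refine ⟨α z, ?_, g2⟩
          rw [← g3]; abel
        · rintro ⟨p, hp, hp2⟩
          have hz : z = x + N • (p - α x) := by
            have : z = N • p + y := by rw [← hp]; abel
            rw [this, ← h3, smul_sub]; abel
          have hzE : z ∈ E := by
            rw [hz]
            apply htyp x hx
            rw [h1, h2, hp2]
          have hcz := hcell z hzE f0
          have hcx := hcell x hx f0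
          have e : z + σ f0 = (x + σ f0) + N • (p - α x) := by rw [hz]; abel
          have ha : α z = p := by
            rw [← hcz.1, e, C.anch_add, hcx.1]; abel
          have hl : l z = j := by
            have : some (l z) = some (l x) := by
              rw [← hcz.2, e, C.lab_add, hcx.2]
            rw [Option.some.inj this, h1]
          refine ⟨hzE, hl, ?_, ?_⟩
          · change C.typ j (α z) = θ
            rw [ha, hp2]
          · change z - N • α z = y
            rw [ha, hz, ← h3, smul_sub]; abel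
      rw [hset, ltr_shift y σ hVD (C.small j θ)]
      refine Subgroup.mem_iSup_of_mem (j, θ) ?_
      refine ⟨a.viaEmbedding (trEmb y σ (C.D j) hVD), ?_, rfl⟩
      rw [SetLike.mem_coe, Perm.mem_alternatingGroup, sign_trEmb]
      exact Perm.mem_alternatingGroup.1 ha
    · rw [Set.not_nonempty_iff_eq_empty] at hemp
      rw [hemp, ltr_empty]
      exact Subgroup.one_mem _

end CS

end Vale.Agent.P196.Cut
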